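import Vale.Agent.P022.H567.Gch

/-! # P022: the final sum of [FCH] (helper48) -/

open NumberField IsDedekindDomain Finset

noncomputable section

namespace Vale.Agent.P022.H48

open Vale.Agent.P022.C

variable {K : Type} [Field K] [NumberField K]

lemma ordv_of_notMem (α : 𝓞 K) (v : HeightOneSpectrum (𝓞 K)) (h : α ∉ v.asIdeal) :
    ordv v (α : K) = 0 := by
  have h1 : v.valuation K (algebraMap (𝓞 K) K α) = 1 := by
    rw [HeightOneSpectrum.valuation_of_algebraMap]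
    exact HeightOneSpectrum.intValuation_eq_one_iff.2 h
  show -WithZero.log (v.valuation K (algebraMap (𝓞 K) K α)) = 0
  rw [h1]
  simp

theorem ordv_of_dvd (m : ℕ) (α : 𝓞 K) (h : (m : 𝓞 K) ∣ α - 1) (v : HeightOneSpectrum (𝓞 K))
    (hv : (m : 𝓞 K) ∈ v.asIdeal) : ordv v (α : K) = 0 := by
  apply ordv_of_notMem
  intro hα
  apply v.isPrime.ne_top
  rw [Ideal.eq_top_iff_one]
  have h1 : α - 1 ∈ v.asIdeal := Ideal.mem_of_dvd _ h hv
  have h2 := v.asIdeal.sub_mem hα h1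
  simpa using h2

lemma finite_supp {α : 𝓞 K} (hα : α ≠ 0) :
    {v : HeightOneSpectrum (𝓞 K) | ordv v (α : K) ≠ 0}.Finite := by
  have h1 : (Ideal.span {α} : Ideal (𝓞 K)) ≠ 0 := by
    rw [Ne, Ideal.zero_eq_bot, Ideal.span_singleton_eq_bot]
    exact hα
  refine (Ideal.finite_factors h1).subset fun v hv => ?_
  by_contra hn
  apply hv
  apply ordv_of_notMem
  intro hm
  apply hn
  show v.asIdeal ∣ Ideal.span {α}
  rw [Ideal.dvd_span_singleton]
  exact hm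

theorem fsum {n n' : ℕ} (t : ZMod n) (ht : n' • t = 0) (α : 𝓞 K) (hα : α ≠ 0)
    (f : HeightOneSpectrum (𝓞 K) → ZMod n) (a : HeightOneSpectrum (𝓞 K) → ℕ)
    (hf : ∀ v, ordv v (α : K) ≠ 0 → f v = a v • t) (c : (K →+* ℝ) → ZMod n)
    (b : (K →+* ℝ) → ℕ) (hc : ∀ φ, c φ = b φ • t)
    (h : (n' : ℤ) ∣ (∑ᶠ v : HeightOneSpectrum (𝓞 K), ordv v (α : K) * a v) +
      ∑ᶠ φ ∈ {φ : K →+* ℝ | φ (α : K) < 0}, (b φ : ℤ)) :
    (∑ᶠ v : HeightOneSpectrum (𝓞 K), ordv v (α : K) • f v) +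
      ∑ᶠ φ ∈ {φ : K →+* ℝ | φ (α : K) < 0}, c φ = 0 := by
  let T : ℤ →+ ZMod n := (zmultiplesHom (ZMod n)) t
  have hT : ∀ z : ℤ, T z = z • t := fun z => rfl
  have h1 : (∑ᶠ v : HeightOneSpectrum (𝓞 K), ordv v (α : K) • f v) =
      T (∑ᶠ v : HeightOneSpectrum (𝓞 K), ordv v (α : K) * a v) := by
    rw [AddMonoidHom.map_finsum]
    · refine finsum_congr fun v => ?_
      rw [hT]
      by_cases h0 : ordv v (α : K) = 0
      · rw [h0]; simp
      · rw [hf v h0, mul_smul, natCast_zsmul]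
    · refine (finite_supp hα).subset fun v hv => ?_
      intro h0
      apply hv
      show ordv v (α : K) * a v = 0
      rw [h0, zero_mul]
  have h2 : (∑ᶠ φ ∈ {φ : K →+* ℝ | φ (α : K) < 0}, c φ) =
      T (∑ᶠ φ ∈ {φ : K →+* ℝ | φ (α : K) < 0}, (b φ : ℤ)) := by
    rw [AddMonoidHom.map_finsum_mem _ _ (Set.toFinite _)]
    refine finsum_mem_congr rfl fun φ _ => ?_
    rw [hT, hc, natCast_zsmul]
  rw [h1, h2, ← map_add, hT]
  obtain ⟨k, hk⟩ := h
  rw [hk, mul_comm, mul_smul, natCast_zsmul, ht, smul_zero]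

end Vale.Agent.P022.H48
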