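import Vale.Agent.P022.H567.Real

/-! # P022, [UNF]: finiteness of the ramification (helper48) -/

open NumberField Finset

noncomputable section

namespace Vale.Agent.P022.H48

open Vale.Agent.P022.C

variable {K L : Type} [Field K] [Field L] [NumberField L] [Algebra K L]

omit [NumberField L] in
lemma exists_ne (s : L ≃ₐ[K] L) (hs : s ≠ 1) [NumberField L] : ∃ x : 𝓞 L, s • x - x ≠ 0 := by
  by_contra hn
  push Not at hn
  apply hs
  ext y
  obtain ⟨a, b, hb, rfl⟩ := IsFractionRing.div_surjective (A := 𝓞 L) y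
  have h1 : ∀ a : 𝓞 L, s (algebraMap (𝓞 L) L a) = algebraMap (𝓞 L) L a := by
    intro a
    have h2 : s • a = a := sub_eq_zero.1 (hn a)
    have h3 := congrArg (algebraMap (𝓞 L) L) h2
    exact h3
  rw [map_div₀, h1, h1]
  rfl

theorem UNF : UNFStmt := by
  classical
  intro K L _ _ _ _ _ n σ h
  have hfin : Module.Finite K L := Module.finite_of_finrank_pos (by rw [h.rank]; exact h.pos)
  have hft : Finite (L ≃ₐ[K] L) := inferInstance
  have hft' : Fintype (L ≃ₐ[K] L) := Fintype.ofFinite _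
  choose! x hx using fun (s : L ≃ₐ[K] L) (hs : s ≠ 1) => exists_ne s hs
  refine ⟨∏ s ∈ univ.filter (fun s : L ≃ₐ[K] L => s ≠ 1),
    Ideal.absNorm (Ideal.span {s • x s - x s}), ?_, ?_⟩
  · rw [Finset.prod_ne_zero_iff]
    intro s hs
    rw [Finset.mem_filter] at hs
    rw [Ne, Ideal.absNorm_eq_zero_iff, Ideal.span_singleton_eq_bot]
    exact hx s hs.2
  · intro P hP hU
    unfold Unr at hU
    push Not at hU
    obtain ⟨i, hi, hne⟩ := hU
    have h1 : ((Ideal.absNorm (Ideal.span {(σ ^ i) • x (σ ^ i) - x (σ ^ i)}) : ℕ) : 𝓞 L) ∈ P := by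
      have h2 : Ideal.span {(σ ^ i) • x (σ ^ i) - x (σ ^ i)} ≤ P := by
        rw [Ideal.span_singleton_le_iff_mem]
        exact hi _
      exact h2 (Ideal.absNorm_mem _)
    rw [← Finset.prod_erase_mul _ _ (Finset.mem_filter.2 ⟨Finset.mem_univ (σ ^ i), hne⟩),
      Nat.cast_mul]
    exact P.mul_mem_left _ h1

end Vale.Agent.P022.H48
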